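import Vale.Agent.P047.Fourier

namespace Vale.Agent.P047

/-- restriction of the first bit -/
def res {n : ℕ} (b : Bool) (f : (Fin (n + 1) → Bool) → ℝ) : (Fin n → Bool) → ℝ :=
  fun x => f (Fin.cons b x)

/-- mean with respect to the product measure of bias `t` -/
noncomputable def E : (n : ℕ) → ℝ → ((Fin n → Bool) → ℝ) → ℝ
  | 0, _, f => f Fin.elim0
  | n + 1, t, f => (1 + t) / 2 * E n t (res true f) + (1 - t) / 2 * E n t (res false f)

/-- its derivative in `t` -/
noncomputable def dE : (n : ℕ) → ℝ → ((Fin n → Bool) → ℝ) → ℝ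
  | 0, _, _ => 0
  | n + 1, t, f => (E n t (res true f) - E n t (res false f)) / 2 +
      ((1 + t) / 2 * dE n t (res true f) + (1 - t) / 2 * dE n t (res false f))

/-- energy -/
noncomputable def D : (n : ℕ) → ℝ → ((Fin n → Bool) → ℝ) → ℝ
  | 0, _, _ => 0
  | n + 1, t, f => E n t (fun x => ((res true f x - res false f x) / 2) ^ 2) +
      ((1 + t) / 2 * D n t (res true f) + (1 - t) / 2 * D n t (res false f))

/-- degree at most `d` -/
def Deg : (n : ℕ) → ℤ → ((Fin n → Bool) → ℝ) → Prop
  | 0, d, f => d < 0 → f Fin.elim0 = 0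
  | n + 1, d, f => Deg n d (fun x => (res true f x + res false f x) / 2) ∧
      Deg n (d - 1) (fun x => (res true f x - res false f x) / 2)

lemma E_lin (n : ℕ) (t a b : ℝ) : ∀ u v : (Fin n → Bool) → ℝ,
    E n t (fun x => a * u x + b * v x) = a * E n t u + b * E n t v := by
  induction n with
  | zero => intro u v; rfl
  | succ n ih =>
    intro u v
    have h : ∀ c : Bool, E n t (res c fun x => a * u x + b * v x)
        = a * E n t (res c u) + b * E n t (res c v) := fun c => ih (res c u) (res c v)
    simp only [E, h]
    ring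

lemma E_mono (n : ℕ) {t : ℝ} (h1 : -1 ≤ t) (h2 : t ≤ 1) : ∀ u v : (Fin n → Bool) → ℝ,
    (∀ x, u x ≤ v x) → E n t u ≤ E n t v := by
  induction n with
  | zero => intro u v h; exact h _
  | succ n ih =>
    intro u v h
    have h3 := ih (res true u) (res true v) fun x => h _
    have h4 := ih (res false u) (res false v) fun x => h _
    simp only [E]
    nlinarith

lemma E_const (n : ℕ) (t c : ℝ) : E n t (fun _ => c) = c := by
  induction n with
  | zero => rfl
  | succ n ih =>
    have h : ∀ b : Bool, E n t (res b fun _ => c) = c := fun b => ih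
    simp only [E, h]
    ring

lemma Deg_lin (n : ℕ) (a b : ℝ) : ∀ (d : ℤ) (u v : (Fin n → Bool) → ℝ), Deg n d u → Deg n d v →
    Deg n d (fun x => a * u x + b * v x) := by
  induction n with
  | zero =>
    intro d u v hu hv hd
    show a * u _ + b * v _ = 0
    rw [hu hd, hv hd]; ring
  | succ n ih =>
    intro d u v hu hv
    constructor
    · have := ih d _ _ hu.1 hv.1
      convert this using 2
      simp only [res]
      ring
    · have := ih (d - 1) _ _ hu.2 hv.2
      convert this using 2
      simp only [res]
      ring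

lemma Deg_mono (n : ℕ) : ∀ (d e : ℤ) (u : (Fin n → Bool) → ℝ), d ≤ e → Deg n d u → Deg n e u := by
  induction n with
  | zero => intro d e u h hu he; exact hu (by omega)
  | succ n ih =>
    intro d e u h hu
    exact ⟨ih _ _ _ h hu.1, ih _ _ _ (by omega) hu.2⟩

lemma Deg_neg (n : ℕ) : ∀ (d : ℤ) (u : (Fin n → Bool) → ℝ), d < 0 → Deg n d u → ∀ x, u x = 0 := by
  induction n with
  | zero =>
    intro d u h hu x
    have : x = Fin.elim0 := funext fun i => i.elim0
    rw [this]
    exact hu h
  | succ n ih =>
    intro d u h hu x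
    have h1 := ih _ _ h hu.1 (Fin.tail x)
    have h2 := ih _ _ (by omega) hu.2 (Fin.tail x)
    simp only [res] at h1 h2
    rw [← Fin.cons_self_tail x]
    cases x 0
    · linarith
    · linarith

lemma D_quad (n : ℕ) (t : ℝ) : ∀ u v : (Fin n → Bool) → ℝ,
    (1 + t) / 2 * D n t (fun x => u x + (1 - t) * v x)
      + (1 - t) / 2 * D n t (fun x => u x - (1 + t) * v x) = D n t u + (1 - t ^ 2) * D n t v := by
  induction n with
  | zero => intro u v; simp [D]
  | succ n ih =>
    intro u v
    have h1 := ih (res true u) (res true v)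
    have h2 := ih (res false u) (res false v)
    have e1 : ∀ c : Bool, res c (fun x => u x + (1 - t) * v x)
      = fun x => res c u x + (1 - t) * res c v x := fun c => rfl
    have e2 : ∀ c : Bool, res c (fun x => u x - (1 + t) * v x)
      = fun x => res c u x - (1 + t) * res c v x := fun c => rfl
    have h3 : (1 + t) / 2 * E n t (fun x => (((res true u x + (1 - t) * res true v x)
          - (res false u x + (1 - t) * res false v x)) / 2) ^ 2)
        + (1 - t) / 2 * E n t (fun x => (((res true u x - (1 + t) * res true v x)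
          - (res false u x - (1 + t) * res false v x)) / 2) ^ 2)
        = E n t (fun x => ((res true u x - res false u x) / 2) ^ 2)
          + (1 - t ^ 2) * E n t (fun x => ((res true v x - res false v x) / 2) ^ 2) := by
      have h4 := E_lin n t 1 (1 - t ^ 2) (fun x => ((res true u x - res false u x) / 2) ^ 2)
        (fun x => ((res true v x - res false v x) / 2) ^ 2)
      rw [one_mul] at h4
      rw [← h4, ← E_lin]
      congr 1
      funext x
      ring
    simp only [D, e1, e2]
    linear_combination h3 + (1 + t) / 2 * h1 + (1 - t) / 2 * h2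

lemma energy (n : ℕ) {t : ℝ} (h1 : -1 ≤ t) (h2 : t ≤ 1) : ∀ (d : ℤ) (f : (Fin n → Bool) → ℝ),
    Deg n d f → (1 - t ^ 2) * D n t f ≤ d * (E n t (fun x => f x ^ 2) - E n t f ^ 2) := by
  induction n with
  | zero => intro d f _; simp [D, E]
  | succ n ih =>
    intro d f hf
    obtain ⟨hs, hb⟩ := hf
    set b : (Fin n → Bool) → ℝ := fun x => (res true f x - res false f x) / 2 with hbdef
    set a : (Fin n → Bool) → ℝ := fun x => 1 * ((res true f x + res false f x) / 2) + t * b x
      with hadef
    have ha : Deg n d a := Deg_lin n 1 t d _ _ hs (Deg_mono n _ _ _ (by omega) hb)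
    have hp : res true f = fun x => a x + (1 - t) * b x := by
      funext x; simp only [hadef, hbdef]; ring
    have hm : res false f = fun x => a x - (1 + t) * b x := by
      funext x; simp only [hadef, hbdef]; ring
    have hD : D (n + 1) t f = E n t (fun x => b x ^ 2) + (D n t a + (1 - t ^ 2) * D n t b) := by
      rw [← D_quad n t a b, ← hp, ← hm]
      rfl
    have hE : E (n + 1) t f = E n t a := by
      have h3 := E_lin n t ((1 + t) / 2) ((1 - t) / 2) (res true f) (res false f)
      simp only [E]
      rw [← h3]
      congr 1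
      funext x
      simp only [hadef, hbdef]
      ring
    have hE2 : E (n + 1) t (fun x => f x ^ 2)
        = E n t (fun x => a x ^ 2) + (1 - t ^ 2) * E n t (fun x => b x ^ 2) := by
      have h3 := E_lin n t ((1 + t) / 2) ((1 - t) / 2) (fun x => res true f x ^ 2)
        (fun x => res false f x ^ 2)
      have h4 := E_lin n t 1 (1 - t ^ 2) (fun x => a x ^ 2) (fun x => b x ^ 2)
      rw [one_mul] at h4
      rw [← h4]
      have h5 : E (n + 1) t (fun x => f x ^ 2) = (1 + t) / 2 * E n t (fun x => res true f x ^ 2)
        + (1 - t) / 2 * E n t (fun x => res false f x ^ 2) := rfl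
      rw [h5, ← h3]
      congr 1
      funext x
      rw [hp, hm]
      ring
    have ih1 := ih d a ha
    have ih2 := ih (d - 1) b hb
    have ht : 0 ≤ 1 - t ^ 2 := by nlinarith
    rw [hD, hE, hE2]
    by_cases hd : d - 1 < 0
    · have hb0 : b = fun _ => 0 := funext fun x => Deg_neg n _ b hd hb x
      have hDb : D n t b * (1 - t ^ 2) ≤ 0 := by
        rw [hb0] at ih2 ⊢
        simp only [E_const] at ih2
        push_cast at ih2
        nlinarith
      have hEb : E n t (fun x => b x ^ 2) = 0 := by
        rw [hb0]
        have : (fun _ : Fin n → Bool => (0 : ℝ) ^ 2) = fun _ => 0 := by funext x; norm_num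
        rw [this, E_const]
      rw [hEb]
      nlinarith
    · have hd' : (0 : ℝ) ≤ d - 1 := by
        have : (0 : ℤ) ≤ d - 1 := by omega
        exact_mod_cast this
      push_cast at ih2
      have h6 : (1 - t ^ 2) * D n t b ≤ (d - 1) * E n t (fun x => b x ^ 2) := by
        nlinarith [sq_nonneg (E n t b)]
      nlinarith [mul_le_mul_of_nonneg_left h6 ht]

lemma dE_le_D (n : ℕ) {t : ℝ} (h1 : -1 ≤ t) (h2 : t ≤ 1) : ∀ f : (Fin n → Bool) → ℝ,
    (∀ x, f x = 1 ∨ f x = -1) → dE n t f ≤ D n t f := by
  induction n with
  | zero => intro f _; exact le_rfl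
  | succ n ih =>
    intro f hf
    have hp := ih (res true f) fun x => hf _
    have hm := ih (res false f) fun x => hf _
    have hb : (E n t (res true f) - E n t (res false f)) / 2
        ≤ E n t (fun x => ((res true f x - res false f x) / 2) ^ 2) := by
      have h3 := E_lin n t (1 / 2) (-(1 / 2)) (res true f) (res false f)
      have h4 : (E n t (res true f) - E n t (res false f)) / 2
        = 1 / 2 * E n t (res true f) + -(1 / 2) * E n t (res false f) := by ring
      rw [h4, ← h3]
      apply E_mono n h1 h2
      intro x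
      have h5 : res true f x = 1 ∨ res true f x = -1 := hf _
      have h6 : res false f x = 1 ∨ res false f x = -1 := hf _
      rcases h5 with h5 | h5 <;> rcases h6 with h6 | h6 <;> rw [h5, h6] <;> norm_num
    simp only [dE, D]
    nlinarith

lemma E_hasDerivAt (n : ℕ) : ∀ (f : (Fin n → Bool) → ℝ) (t : ℝ),
    HasDerivAt (fun t => E n t f) (dE n t f) t := by
  induction n with
  | zero => intro f t; exact hasDerivAt_const _ _
  | succ n ih =>
    intro f t
    have hp := ih (res true f) t
    have hm := ih (res false f) t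
    have h1 : HasDerivAt (fun t : ℝ => (1 + t) / 2) (1 / 2) t :=
      ((hasDerivAt_id' t).const_add 1).div_const 2
    have h2 : HasDerivAt (fun t : ℝ => (1 - t) / 2) (-1 / 2) t :=
      ((hasDerivAt_id' t).const_sub 1).div_const 2
    have h3 := (h1.mul hp).add (h2.mul hm)
    refine h3.congr_deriv ?_
    simp only [dE]
    ring

/-- the differential inequality -/
lemma ode (n : ℕ) {t : ℝ} (h1 : -1 ≤ t) (h2 : t ≤ 1) (d : ℤ) (f : (Fin n → Bool) → ℝ)
    (hf : ∀ x, f x = 1 ∨ f x = -1) (hd : Deg n d f) :
    (1 - t ^ 2) * dE n t f ≤ d * (1 - E n t f ^ 2) := by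
  have h3 := energy n h1 h2 d f hd
  have h4 : E n t (fun x => f x ^ 2) = 1 := by
    have : (fun x => f x ^ 2) = fun _ => (1 : ℝ) := by
      funext x
      rcases hf x with h | h <;> rw [h] <;> norm_num
    rw [this, E_const]
  rw [h4] at h3
  have h5 := dE_le_D n h1 h2 f hf
  have ht : 0 ≤ 1 - t ^ 2 := by nlinarith
  nlinarith [mul_le_mul_of_nonneg_left h5 ht]

lemma E_bound (n : ℕ) {t : ℝ} (h1 : -1 ≤ t) (h2 : t ≤ 1) (f : (Fin n → Bool) → ℝ)
    (hf : ∀ x, f x = 1 ∨ f x = -1) : -1 ≤ E n t f ∧ E n t f ≤ 1 := by
  constructor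
  · rw [← E_const n t (-1)]
    apply E_mono n h1 h2
    intro x
    rcases hf x with h | h <;> rw [h]
    norm_num
  · rw [← E_const n t 1]
    apply E_mono n h1 h2
    intro x
    rcases hf x with h | h <;> rw [h]
    norm_num

/-- a mean equal to the upper bound forces constancy -/
lemma E_eq_max (n : ℕ) {t : ℝ} (h1 : -1 < t) (h2 : t < 1) (c : ℝ) : ∀ f : (Fin n → Bool) → ℝ,
    (∀ x, f x ≤ c) → c ≤ E n t f → ∀ x, f x = c := by
  induction n with
  | zero =>
    intro f hf hE x
    have : x = Fin.elim0 := funext fun i => i.elim0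
    rw [this]
    exact le_antisymm (hf _) hE
  | succ n ih =>
    intro f hf hE x
    have hp : E n t (res true f) ≤ c := by
      rw [← E_const n t c]; exact E_mono n h1.le h2.le _ _ fun x => hf _
    have hm : E n t (res false f) ≤ c := by
      rw [← E_const n t c]; exact E_mono n h1.le h2.le _ _ fun x => hf _
    simp only [E] at hE
    have hp' : c ≤ E n t (res true f) := by nlinarith
    have hm' : c ≤ E n t (res false f) := by nlinarith
    rw [← Fin.cons_self_tail x]
    cases x 0
    · exact ih (res false f) (fun x => hf _) hm' _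
    · exact ih (res true f) (fun x => hf _) hp' _

lemma dE_const (n : ℕ) (t c : ℝ) : dE n t (fun _ => c) = 0 := by
  induction n with
  | zero => rfl
  | succ n ih =>
    have h : ∀ b : Bool, dE n t (res b fun _ => c) = 0 := fun b => ih
    have h' : ∀ b : Bool, E n t (res b fun _ => c) = c := fun b => E_const n t c
    simp only [dE, h, h']
    ring

/-! ### Fourier coefficients -/

lemma sum_cons {n : ℕ} (g : (Fin (n + 1) → Bool) → ℝ) :
    ∑ x, g x = ∑ x, g (Fin.cons true x) + ∑ x, g (Fin.cons false x) := by
  rw [← (Fin.consEquiv fun _ : Fin (n + 1) => Bool).sum_comp, Fintype.sum_prod_type,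
    Fintype.sum_bool]
  rfl

lemma hat_avg {n : ℕ} (f : (Fin (n + 1) → Bool) → ℝ) (S : Finset (Fin n)) :
    hat (fun x => (res true f x + res false f x) / 2) S = hat f (S.map (Fin.succEmb n)) := by
  unfold hat
  rw [sum_cons]
  simp only [Finset.prod_map, Fin.coe_succEmb, Fin.cons_succ, res]
  rw [← Finset.sum_add_distrib, pow_succ, Finset.sum_div, Finset.sum_div]
  apply Finset.sum_congr rfl
  intro x _
  field_simp

lemma hat_diff {n : ℕ} (f : (Fin (n + 1) → Bool) → ℝ) (S : Finset (Fin n)) :
    hat (fun x => (res true f x - res false f x) / 2) S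
      = hat f (insert 0 (S.map (Fin.succEmb n))) := by
  have h0 : (0 : Fin (n + 1)) ∉ S.map (Fin.succEmb n) := by
    simp [Fin.succ_ne_zero]
  unfold hat
  rw [sum_cons]
  simp only [Finset.prod_insert h0, Finset.prod_map, Fin.coe_succEmb, Fin.cons_succ, Fin.cons_zero,
    res]
  rw [← Finset.sum_add_distrib, pow_succ, Finset.sum_div, Finset.sum_div]
  apply Finset.sum_congr rfl
  intro x _
  simp only [sg]
  field_simp
  simp
  ring

lemma deg_of_hat (n : ℕ) : ∀ (d : ℤ) (f : (Fin n → Bool) → ℝ),
    (∀ S : Finset (Fin n), d < S.card → hat f S = 0) → Deg n d f := by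
  induction n with
  | zero =>
    intro d f h hd
    have := h ∅ (by simpa using hd)
    unfold hat at this
    simp at this
    exact (congrArg f (Subsingleton.elim _ _)).trans this
  | succ n ih =>
    intro d f h
    constructor
    · apply ih
      intro S hS
      rw [hat_avg]
      apply h
      rw [Finset.card_map]
      exact hS
    · apply ih
      intro S hS
      rw [hat_diff]
      apply h
      rw [Finset.card_insert_of_notMem (by simp [Fin.succ_ne_zero]), Finset.card_map]
      push_cast
      omega

lemma E_zero (n : ℕ) : ∀ f : (Fin n → Bool) → ℝ, E n 0 f = hat f ∅ := by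
  induction n with
  | zero =>
    intro f
    unfold hat
    simp [E]
    congr 1
  | succ n ih =>
    intro f
    have h1 := hat_avg f ∅
    rw [Finset.map_empty] at h1
    rw [← h1, ← ih]
    have h2 := E_lin n 0 (1 / 2) (1 / 2) (res true f) (res false f)
    simp only [E]
    have h3 : (fun x => (res true f x + res false f x) / 2)
        = fun x => 1 / 2 * res true f x + 1 / 2 * res false f x := by
      funext x; ring
    rw [h3, h2]
    ring

lemma dE_zero (n : ℕ) : ∀ f : (Fin n → Bool) → ℝ, dE n 0 f = ∑ i, hat f {i} := by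
  induction n with
  | zero => intro f; simp [dE]
  | succ n ih =>
    intro f
    rw [Fin.sum_univ_succ]
    have h0 : hat f {0} = (E n 0 (res true f) - E n 0 (res false f)) / 2 := by
      have h1 := hat_diff f ∅
      rw [Finset.map_empty] at h1
      have h3 : (fun x => (res true f x - res false f x) / 2)
          = fun x => 1 / 2 * res true f x + -(1 / 2) * res false f x := by
        funext x; ring
      rw [show ({0} : Finset (Fin (n + 1))) = insert 0 ∅ from rfl, ← h1, ← E_zero, h3, E_lin]
      ring
    have h1 : ∀ i : Fin n, hat f {i.succ} = (hat (res true f) {i} + hat (res false f) {i}) / 2 := by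
      intro i
      have h2 := hat_avg f {i}
      rw [Finset.map_singleton] at h2
      have h3 : (Fin.succEmb n) i = i.succ := rfl
      rw [h3] at h2
      rw [← h2]
      unfold hat
      rw [← add_div, ← Finset.sum_add_distrib, div_right_comm]
      congr 1
      rw [Finset.sum_div]
      apply Finset.sum_congr rfl
      intro x _
      ring
    simp only [dE]
    rw [h0, ih, ih]
    simp only [h1]
    rw [← Finset.sum_div, Finset.sum_add_distrib]
    ring

end Vale.Agent.P047
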