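import Mathlib

namespace Vale.Agent.P047

open Complex Finset

/-- the nodes are `z^(2k+1)`, `k < 2d`, with `z = exp(iπ/(2d))` -/
noncomputable def zt (d : ℕ) : ℂ := Complex.exp ((Real.pi / (2 * d) : ℝ) * I)

noncomputable def wk (d k : ℕ) : ℂ := zt d ^ (2 * k + 1)

variable {d : ℕ}

lemma zt_pow (hd : 1 ≤ d) : zt d ^ (2 * d) = -1 := by
  unfold zt
  rw [← Complex.exp_nat_mul]
  have hd' : (d : ℂ) ≠ 0 := by exact_mod_cast (by omega : d ≠ 0)
  have : ((2 * d : ℕ) : ℂ) * (((Real.pi / (2 * d) : ℝ) : ℂ) * I) = Real.pi * I := by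
    push_cast
    field_simp
  rw [this, Complex.exp_pi_mul_I]

lemma zt_pow_eq (n : ℕ) : zt d ^ n = Complex.exp ((n * (Real.pi / (2 * d)) : ℝ) * I) := by
  unfold zt
  rw [← Complex.exp_nat_mul]
  congr 1
  push_cast
  ring

lemma zt_pow_ne (hd : 1 ≤ d) {n : ℕ} (h0 : 0 < n) (h1 : n < 4 * d) : zt d ^ n ≠ 1 := by
  rw [zt_pow_eq]
  intro h
  rw [Complex.exp_eq_one_iff] at h
  obtain ⟨m, hm⟩ := h
  have hd' : (0 : ℝ) < d := by exact_mod_cast (by omega : 0 < d)
  have h2 : (n * (Real.pi / (2 * d)) : ℝ) = m * (2 * Real.pi) := by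
    have h3 : ((n * (Real.pi / (2 * d)) : ℝ) : ℂ) * I = ((m * (2 * Real.pi) : ℝ) : ℂ) * I := by
      rw [hm]; push_cast; ring
    have h4 := mul_right_cancel₀ I_ne_zero h3
    exact_mod_cast h4
  have hpi := Real.pi_pos
  have h5 : (n : ℝ) = 4 * d * m := by
    field_simp at h2
    nlinarith [h2]
  have h6 : (n : ℤ) = 4 * d * m := by exact_mod_cast h5
  have h7 : (0 : ℤ) < 4 * d * m := by rw [← h6]; exact_mod_cast h0
  have h8 : 4 * (d : ℤ) * m < 4 * d * 1 := by rw [← h6]; exact_mod_cast (by omega)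
  have h9 : m < 1 := lt_of_mul_lt_mul_left h8 (by positivity)
  have h10 : 0 < m := by
    by_contra hcon
    push Not at hcon
    have : 4 * (d : ℤ) * m ≤ 0 := mul_nonpos_of_nonneg_of_nonpos (by positivity) hcon
    omega
  omega

lemma wk_pow (hd : 1 ≤ d) (k : ℕ) : wk d k ^ (2 * d) = -1 := by
  unfold wk
  rw [← pow_mul, mul_comm, pow_mul, zt_pow hd, pow_succ, pow_mul]
  norm_num

lemma wk_ne (hd : 1 ≤ d) {k : ℕ} (hk : k < 2 * d) : wk d k - 1 ≠ 0 := by
  rw [sub_ne_zero]
  exact zt_pow_ne hd (by omega) (by omega)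

/-- power sums over the nodes -/
lemma sum_pow (hd : 1 ≤ d) {r : ℕ} (h0 : 0 < r) (h1 : r < 2 * d) :
    ∑ k ∈ range (2 * d), wk d k ^ r = 0 := by
  have h2 : ∀ k, wk d k ^ r = zt d ^ r * (zt d ^ (2 * r)) ^ k := by
    intro k
    unfold wk
    rw [← pow_mul, ← pow_mul, ← pow_add]
    congr 1
    ring
  simp only [h2]
  rw [← mul_sum]
  have hne : zt d ^ (2 * r) ≠ 1 := zt_pow_ne hd (by omega) (by omega)
  rw [geom_sum_eq hne, ← pow_mul]
  have : zt d ^ (2 * r * (2 * d)) = 1 := by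
    rw [mul_comm, pow_mul, zt_pow hd, pow_mul]
    norm_num
  rw [this]
  simp

noncomputable def U (d r : ℕ) : ℂ := ∑ k ∈ range (2 * d), wk d k ^ r / (wk d k - 1)
noncomputable def S (d r : ℕ) : ℂ := ∑ k ∈ range (2 * d), wk d k ^ (r + 1) / (wk d k - 1) ^ 2

lemma U_succ (hd : 1 ≤ d) (r : ℕ) : U d (r + 1) - U d r = ∑ k ∈ range (2 * d), wk d k ^ r := by
  unfold U
  rw [← sum_sub_distrib]
  apply sum_congr rfl
  intro k hk
  have := wk_ne hd (mem_range.1 hk)
  field_simp
  ring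

lemma U_val (hd : 1 ≤ d) {r : ℕ} (h0 : 1 ≤ r) (h1 : r ≤ 2 * d) : U d r = d := by
  have hconst : ∀ r, 1 ≤ r → r ≤ 2 * d → U d r = U d 1 := by
    intro r
    induction r with
    | zero => intro h; omega
    | succ r ih =>
      intro _ hr
      by_cases h : r = 0
      · rw [h]
      · rw [← ih (by omega) (by omega)]
        have := U_succ hd r
        rw [sum_pow hd (by omega) (by omega)] at this
        linear_combination this
  have h2 : U d (2 * d) = -U d 0 := by
    unfold U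
    rw [← sum_neg_distrib]
    apply sum_congr rfl
    intro k _
    rw [wk_pow hd]
    ring
  have h3 := U_succ hd 0
  simp only [pow_zero, sum_const, card_range, nsmul_eq_mul, mul_one] at h3
  have h4 := hconst (2 * d) (by omega) le_rfl
  rw [hconst r h0 h1]
  rw [h2] at h4
  push_cast at h3
  linear_combination (1 / 2 : ℂ) * h3 - (1 / 2 : ℂ) * h4

lemma S_val (hd : 1 ≤ d) {r : ℕ} (h1 : r ≤ 2 * d) : S d r = d * (r - d) := by
  have hstep : ∀ r, S d (r + 1) - S d r = U d (r + 1) := by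
    intro r
    unfold S U
    rw [← sum_sub_distrib]
    apply sum_congr rfl
    intro k hk
    have := wk_ne hd (mem_range.1 hk)
    field_simp
    ring
  have hlin : ∀ r, r ≤ 2 * d → S d r = S d 0 + d * r := by
    intro r
    induction r with
    | zero => intro _; simp
    | succ r ih =>
      intro hr
      have h2 := hstep r
      rw [U_val hd (by omega) hr, ih (by omega)] at h2
      push_cast
      linear_combination h2
  have h2 : S d (2 * d) = -S d 0 := by
    unfold S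
    rw [← sum_neg_distrib]
    apply sum_congr rfl
    intro k _
    rw [pow_succ, wk_pow hd, zero_add]
    ring
  have h3 := hlin (2 * d) le_rfl
  rw [h2] at h3
  rw [hlin r h1]
  push_cast at h3
  linear_combination (-1 / 2 : ℂ) * h3

/-- weights -/
noncomputable def lam (d k : ℕ) : ℂ := I / d * (wk d k ^ (d + 1) / (wk d k - 1) ^ 2)

lemma wk_ne_zero (k : ℕ) : wk d k ≠ 0 := by
  unfold wk zt
  exact pow_ne_zero _ (Complex.exp_ne_zero _)

/-- Riesz' interpolation formula on exponentials -/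
lemma riesz (hd : 1 ≤ d) {m : ℤ} (h1 : -d ≤ m) (h2 : m ≤ d) :
    ∑ k ∈ range (2 * d), lam d k * wk d k ^ m = I * m := by
  obtain ⟨r, hr⟩ : ∃ r : ℕ, (r : ℤ) = m + d := ⟨(m + d).toNat, by omega⟩
  have h3 : ∀ k, lam d k * wk d k ^ m = I / d * (wk d k ^ (r + 1) / (wk d k - 1) ^ 2) := by
    intro k
    have h4 : wk d k ^ (d + 1) * wk d k ^ m = wk d k ^ (r + 1) := by
      rw [← zpow_natCast, ← zpow_natCast, ← zpow_add₀ (wk_ne_zero k)]
      congr 1
      push_cast
      omega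
    unfold lam
    rw [← h4]
    ring
  simp only [h3]
  rw [← mul_sum]
  have h5 := S_val hd (r := r) (by omega)
  unfold S at h5
  rw [h5]
  have hd' : (d : ℂ) ≠ 0 := by exact_mod_cast (by omega : d ≠ 0)
  have h6 : (r : ℂ) = m + d := by exact_mod_cast hr
  rw [h6]
  field_simp
  ring

/-- angles of the nodes -/
noncomputable def ang (d k : ℕ) : ℝ := (2 * k + 1) * (Real.pi / (2 * d))

lemma wk_exp (k : ℕ) : wk d k = Complex.exp (ang d k * I) := by
  unfold wk ang
  rw [zt_pow_eq]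
  push_cast
  rfl

/-- the real weights -/
noncomputable def lamR (d k : ℕ) : ℝ := (-1) ^ k / (4 * d * Real.sin (ang d k / 2) ^ 2)

lemma wk_pow_d (hd : 1 ≤ d) (k : ℕ) : wk d k ^ d = I * (-1) ^ k := by
  have hd' : (d : ℂ) ≠ 0 := by exact_mod_cast (by omega : d ≠ 0)
  have h1 : zt d ^ d = I := by
    rw [zt_pow_eq]
    have : ((d * (Real.pi / (2 * d)) : ℝ) : ℂ) * I = Real.pi / 2 * I := by
      push_cast
      field_simp
    rw [this, Complex.exp_pi_div_two_mul_I]
  unfold wk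
  rw [← pow_mul, mul_comm, pow_mul, h1, pow_succ, pow_mul, I_sq]
  ring

lemma lam_real (hd : 1 ≤ d) {k : ℕ} (hk : k < 2 * d) : lam d k = (lamR d k : ℂ) := by
  have hd' : (d : ℂ) ≠ 0 := by exact_mod_cast (by omega : d ≠ 0)
  have hne := wk_ne hd hk
  have hw0 := wk_ne_zero (d := d) k
  have hsin : (4 * Real.sin (ang d k / 2) ^ 2 : ℂ) * wk d k = -(wk d k - 1) ^ 2 := by
    have h1 : (Real.sin (ang d k / 2) : ℂ) = Complex.sin ((ang d k : ℂ) / 2) := by
      push_cast
      rfl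
    rw [h1, wk_exp, Complex.sin]
    set a : ℂ := Complex.exp ((ang d k : ℂ) / 2 * I) with ha
    have h2 : Complex.exp ((ang d k : ℂ) * I) = a ^ 2 := by
      rw [ha, ← Complex.exp_nat_mul]
      congr 1
      push_cast
      ring
    have h3 : Complex.exp (-((ang d k : ℂ) / 2) * I) = a⁻¹ := by
      rw [ha, ← Complex.exp_neg]
      congr 1
      ring
    have ha0 : a ≠ 0 := Complex.exp_ne_zero _
    rw [h2, h3]
    field_simp
    rw [I_sq]
    ring
  have hs0 : (4 * Real.sin (ang d k / 2) ^ 2 : ℂ) ≠ 0 := by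
    intro h
    rw [h, zero_mul] at hsin
    exact hne (pow_eq_zero_iff (two_ne_zero) |>.1 (by linear_combination hsin))
  unfold lam lamR
  rw [pow_succ, wk_pow_d hd]
  push_cast
  have h4 : (wk d k - 1) ^ 2 = -((4 * Real.sin (ang d k / 2) ^ 2 : ℂ) * wk d k) := by
    rw [hsin]; ring
  rw [h4]
  have hs1 : (Real.sin (ang d k / 2) : ℂ) ≠ 0 := by
    intro h
    apply hs0
    rw [h]
    ring
  push_cast at hs1 ⊢
  field_simp
  rw [I_sq]
  ring

lemma sum_abs (hd : 1 ≤ d) : ∑ k ∈ range (2 * d), |lamR d k| = d := by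
  have h1 := riesz hd (m := d) (by omega) le_rfl
  have h2 : ∀ k ∈ range (2 * d), lam d k * wk d k ^ (d : ℤ) = I * ((|lamR d k| : ℝ) : ℂ) := by
    intro k hk
    rw [lam_real hd (mem_range.1 hk), zpow_natCast, wk_pow_d hd]
    have h3 : |lamR d k| = (-1) ^ k * lamR d k := by
      unfold lamR
      have hpos : (0 : ℝ) ≤ 4 * d * Real.sin (ang d k / 2) ^ 2 := by positivity
      rw [abs_div, abs_pow, abs_neg, abs_one, one_pow, abs_of_nonneg hpos, ← mul_div_assoc,
        ← mul_pow]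
      norm_num
    rw [h3]
    push_cast
    ring
  rw [sum_congr rfl h2, ← mul_sum] at h1
  have h4 := mul_left_cancel₀ I_ne_zero h1
  have h5 : ((∑ k ∈ range (2 * d), |lamR d k| : ℝ) : ℂ) = ((d : ℝ) : ℂ) := by
    push_cast
    push_cast at h4
    exact h4
  exact_mod_cast h5

end Vale.Agent.P047
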