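import Vale.Agent.P047.Cube
import Vale.Agent.P047.Riesz

namespace Vale.Agent.P047

open Finset

/-- trigonometric polynomials of degree at most `d` -/
noncomputable def TS (d : ℤ) : Submodule ℂ (ℝ → ℂ) :=
  Submodule.span ℂ {g | ∃ m : ℤ, -d ≤ m ∧ m ≤ d ∧ g = fun θ : ℝ => Complex.exp (m * θ * Complex.I)}

lemma mem_TS {d m : ℤ} (h1 : -d ≤ m) (h2 : m ≤ d) :
    (fun θ : ℝ => Complex.exp (m * θ * Complex.I)) ∈ TS d :=
  Submodule.subset_span ⟨m, h1, h2, rfl⟩

lemma TS_sin {d : ℤ} {g : ℝ → ℂ} (hg : g ∈ TS (d - 1)) :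
    (fun θ : ℝ => ((Real.sin θ : ℝ) : ℂ) * g θ) ∈ TS d := by
  unfold TS at hg
  induction hg using Submodule.span_induction with
  | mem g hg =>
    obtain ⟨m, h1, h2, rfl⟩ := hg
    have h3 : (fun θ : ℝ => ((Real.sin θ : ℝ) : ℂ) * Complex.exp (m * θ * Complex.I))
        = (1 / (2 * Complex.I)) • (fun θ : ℝ => Complex.exp ((m + 1 : ℤ) * θ * Complex.I))
          - (1 / (2 * Complex.I)) • (fun θ : ℝ => Complex.exp ((m - 1 : ℤ) * θ * Complex.I)) := by
      funext θ
      simp only [Pi.sub_apply, Pi.smul_apply, smul_eq_mul]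
      have e1 : Complex.exp ((m + 1 : ℤ) * θ * Complex.I)
          = Complex.exp (m * θ * Complex.I) * Complex.exp (θ * Complex.I) := by
        rw [← Complex.exp_add]
        congr 1
        push_cast
        ring
      have e2 : Complex.exp ((m - 1 : ℤ) * θ * Complex.I)
          = Complex.exp (m * θ * Complex.I) * Complex.exp (-θ * Complex.I) := by
        rw [← Complex.exp_add]
        congr 1
        push_cast
        ring
      rw [e1, e2, Complex.ofReal_sin, Complex.sin]
      have hI := Complex.I_ne_zero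
      field_simp
      rw [Complex.I_sq]
      ring
    rw [h3]
    exact Submodule.sub_mem _ (Submodule.smul_mem _ _ (mem_TS (by omega) (by omega)))
      (Submodule.smul_mem _ _ (mem_TS (by omega) (by omega)))
  | zero =>
    have : (fun θ : ℝ => ((Real.sin θ : ℝ) : ℂ) * (0 : ℝ → ℂ) θ) = 0 := by
      funext θ; simp
    rw [this]
    exact Submodule.zero_mem _
  | add u v _ _ hu hv =>
    have : (fun θ : ℝ => ((Real.sin θ : ℝ) : ℂ) * (u + v) θ)
        = (fun θ : ℝ => ((Real.sin θ : ℝ) : ℂ) * u θ) + fun θ : ℝ => ((Real.sin θ : ℝ) : ℂ) * v θ := by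
      funext θ; simp [mul_add]
    rw [this]
    exact Submodule.add_mem _ hu hv
  | smul a u _ hu =>
    have : (fun θ : ℝ => ((Real.sin θ : ℝ) : ℂ) * (a • u) θ)
        = a • fun θ : ℝ => ((Real.sin θ : ℝ) : ℂ) * u θ := by
      funext θ; simp; ring
    rw [this]
    exact Submodule.smul_mem _ _ hu

lemma E_split (n : ℕ) (t : ℝ) (f : (Fin (n + 1) → Bool) → ℝ) :
    E (n + 1) t f = E n t (fun x => (res true f x + res false f x) / 2)
      + t * E n t (fun x => (res true f x - res false f x) / 2) := by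
  have h1 : (fun x => (res true f x + res false f x) / 2)
      = fun x => 1 / 2 * res true f x + 1 / 2 * res false f x := by funext x; ring
  have h2 : (fun x => (res true f x - res false f x) / 2)
      = fun x => 1 / 2 * res true f x + -(1 / 2) * res false f x := by funext x; ring
  rw [h1, h2, E_lin, E_lin]
  simp only [E]
  ring

lemma E_mem (n : ℕ) : ∀ (d : ℤ) (f : (Fin n → Bool) → ℝ), Deg n d f →
    (fun θ : ℝ => ((E n (Real.sin θ) f : ℝ) : ℂ)) ∈ TS d := by
  induction n with
  | zero =>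
    intro d f h
    by_cases hd : d < 0
    · have : (fun θ : ℝ => ((E 0 (Real.sin θ) f : ℝ) : ℂ)) = 0 := by
        funext θ
        simp [E, h hd]
      rw [this]
      exact Submodule.zero_mem _
    · have : (fun θ : ℝ => ((E 0 (Real.sin θ) f : ℝ) : ℂ))
          = ((f Fin.elim0 : ℝ) : ℂ) • fun θ : ℝ => Complex.exp ((0 : ℤ) * θ * Complex.I) := by
        funext θ
        simp [E]
      rw [this]
      exact Submodule.smul_mem _ _ (mem_TS (by omega) (by omega))
  | succ n ih =>
    intro d f h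
    have h1 := ih d _ h.1
    have h2 := TS_sin (ih (d - 1) _ h.2)
    have h3 := Submodule.add_mem _ h1 h2
    convert h3 using 1
    funext θ
    rw [E_split]
    simp only [Pi.add_apply]
    push_cast
    rfl

lemma riesz_TS {d : ℕ} (hd : 1 ≤ d) {g : ℝ → ℂ} (hg : g ∈ TS d) :
    HasDerivAt g (∑ k ∈ range (2 * d), lam d k * g (ang d k)) 0 := by
  unfold TS at hg
  induction hg using Submodule.span_induction with
  | mem g hg =>
    obtain ⟨m, h1, h2, rfl⟩ := hg
    have h3 : ∀ k, Complex.exp (m * (ang d k : ℝ) * Complex.I) = wk d k ^ m := by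
      intro k
      rw [wk_exp, ← Complex.exp_int_mul]
      congr 1
      ring
    simp only [h3]
    rw [riesz hd h1 h2]
    have h4 : HasDerivAt (fun θ : ℝ => (m : ℂ) * (θ : ℂ) * Complex.I) ((m : ℂ) * 1 * Complex.I) 0 :=
      ((Complex.ofRealCLM.hasDerivAt (x := (0 : ℝ))).const_mul (m : ℂ)).mul_const Complex.I
    have h5 := h4.cexp
    simp at h5
    refine h5.congr_deriv ?_
    ring
  | zero =>
    simp only [Pi.zero_apply, mul_zero, sum_const_zero]
    exact hasDerivAt_const _ _
  | add u v _ _ hu hv =>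
    have := hu.add hv
    refine this.congr_deriv ?_
    rw [← sum_add_distrib]
    apply sum_congr rfl
    intro k _
    simp only [Pi.add_apply]
    ring
  | smul a u _ hu =>
    have := hu.const_smul a
    refine this.congr_deriv ?_
    rw [smul_eq_mul, mul_sum]
    apply sum_congr rfl
    intro k _
    simp only [Pi.smul_apply, smul_eq_mul]
    ring

/-- Riesz' formula for the biased mean -/
lemma riesz_E {n d : ℕ} (hd : 1 ≤ d) {f : (Fin n → Bool) → ℝ} (hf : Deg n d f) :
    dE n 0 f = ∑ k ∈ range (2 * d), lamR d k * E n (Real.sin (ang d k)) f := by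
  have h1 := riesz_TS hd (E_mem n d f hf)
  have h2 : HasDerivAt (fun θ : ℝ => E n (Real.sin θ) f) (dE n 0 f) 0 := by
    have h3 := E_hasDerivAt n f (Real.sin 0)
    have h4 := h3.comp (0 : ℝ) (Real.hasDerivAt_sin 0)
    rw [Real.cos_zero, mul_one, Real.sin_zero] at h4
    exact h4
  have h5 := h2.ofReal_comp.unique h1
  have h6 : ((∑ k ∈ range (2 * d), lamR d k * E n (Real.sin (ang d k)) f : ℝ) : ℂ)
      = ∑ k ∈ range (2 * d), lam d k * ((E n (Real.sin (ang d k)) f : ℝ) : ℂ) := by
    push_cast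
    apply sum_congr rfl
    intro k hk
    rw [lam_real hd (mem_range.1 hk)]
  rw [← h6] at h5
  exact_mod_cast h5

lemma ab_bound {A B Q : ℝ} (hA : 0 < A) (hB : 0 < B) (hQ : 1 ≤ Q)
    (h : (2 - A) * (2 - B) ≤ Q ^ 2 * (A * B)) : 4 / (Q + 1) ≤ A + B := by
  rw [div_le_iff₀ (by linarith)]
  by_contra hcon
  push Not at hcon
  have h1 : A * B ≤ ((A + B) / 2) ^ 2 := by nlinarith [sq_nonneg (A - B)]
  have h2 : 4 - 2 * (A + B) ≤ (Q ^ 2 - 1) * ((A + B) / 2) ^ 2 := by
    have : (Q ^ 2 - 1) * (A * B) ≤ (Q ^ 2 - 1) * ((A + B) / 2) ^ 2 :=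
      mul_le_mul_of_nonneg_left h1 (by nlinarith)
    nlinarith
  have h3 : (2 - (A + B) / 2) ^ 2 ≤ (Q * ((A + B) / 2)) ^ 2 := by nlinarith
  have h4 : 2 - (A + B) / 2 ≤ Q * ((A + B) / 2) :=
    abs_le_of_sq_le_sq' h3 (by positivity) |>.2
  nlinarith

/-- the two main nodes -/
lemma two_nodes {n d : ℕ} (hd : 1 ≤ d) {f : (Fin n → Bool) → ℝ} (hb : ∀ x, f x = 1 ∨ f x = -1)
    (hf : Deg n d f) : dE n 0 f ≤ d - 4 * d / Real.pi ^ 2 *
      ((1 - E n (Real.sin (Real.pi / (2 * d))) f) + (1 + E n (-Real.sin (Real.pi / (2 * d))) f)) := by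
  have hpi := Real.pi_pos
  have hd' : (0 : ℝ) < d := by exact_mod_cast (by omega : 0 < d)
  have hd1 : (1 : ℝ) ≤ d := by exact_mod_cast hd
  set x : ℝ := Real.pi / (2 * d) with hx
  have hx0 : 0 < x := by positivity
  have hx1 : x ≤ Real.pi / 2 := by
    rw [hx]
    apply div_le_div_of_nonneg_left hpi.le (by norm_num) (by linarith)
  have hk : ((2 * d - 1 : ℕ) : ℝ) = 2 * d - 1 := by
    rw [Nat.cast_sub (by omega)]
    push_cast
    ring
  have a0 : ang d 0 = x := by unfold ang; push_cast; rw [hx]; ring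
  have a1 : ang d (2 * d - 1) = 2 * Real.pi - x := by
    unfold ang
    rw [hk, hx]
    field_simp
    ring
  set L : ℝ := 1 / (4 * d * Real.sin (x / 2) ^ 2) with hL
  have hsin0 : 0 < Real.sin (x / 2) := Real.sin_pos_of_pos_of_lt_pi (by linarith) (by linarith)
  have hL0 : 0 < L := by positivity
  have l0 : lamR d 0 = L := by unfold lamR; rw [a0, hL]; norm_num
  have l1 : lamR d (2 * d - 1) = -L := by
    unfold lamR
    rw [a1, show (2 * Real.pi - x) / 2 = Real.pi - x / 2 by ring, Real.sin_pi_sub, hL]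
    have : (-1 : ℝ) ^ (2 * d - 1) = -1 := by
      apply Odd.neg_one_pow
      exact ⟨d - 1, by omega⟩
    rw [this]
    ring
  have hE : ∀ k, -1 ≤ E n (Real.sin (ang d k)) f ∧ E n (Real.sin (ang d k)) f ≤ 1 :=
    fun k => E_bound n (Real.neg_one_le_sin _) (Real.sin_le_one _) f hb
  have hnn : ∀ k, 0 ≤ |lamR d k| - lamR d k * E n (Real.sin (ang d k)) f := by
    intro k
    have h1 : lamR d k * E n (Real.sin (ang d k)) f ≤ |lamR d k| := by
      calc lamR d k * E n (Real.sin (ang d k)) f ≤ |lamR d k * E n (Real.sin (ang d k)) f| :=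
            le_abs_self _
        _ = |lamR d k| * |E n (Real.sin (ang d k)) f| := abs_mul _ _
        _ ≤ |lamR d k| * 1 := mul_le_mul_of_nonneg_left (abs_le.2 (hE k)) (abs_nonneg _)
        _ = |lamR d k| := mul_one _
    linarith
  have hsum : ∑ k ∈ range (2 * d), (|lamR d k| - lamR d k * E n (Real.sin (ang d k)) f)
      = d - dE n 0 f := by
    rw [sum_sub_distrib, sum_abs hd, ← riesz_E hd hf]
  have hsub : ({0, 2 * d - 1} : Finset ℕ) ⊆ range (2 * d) := by
    intro k hk
    simp only [mem_insert, mem_singleton] at hk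
    rw [mem_range]
    omega
  have h2 := sum_le_sum_of_subset_of_nonneg hsub (f := fun k =>
    |lamR d k| - lamR d k * E n (Real.sin (ang d k)) f) (fun k _ _ => hnn k)
  rw [hsum, sum_pair (by omega), l0, l1, a0, a1, Real.sin_two_pi_sub, abs_neg,
    abs_of_pos hL0] at h2
  have hLb : 4 * d / Real.pi ^ 2 ≤ L := by
    rw [hL, div_le_div_iff₀ (by positivity) (by positivity)]
    have h3 : Real.sin (x / 2) ≤ x / 2 := Real.sin_le (by linarith)
    have h4 : Real.sin (x / 2) ^ 2 ≤ (x / 2) ^ 2 := by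
      apply pow_le_pow_left₀ hsin0.le h3
    have h5 : 4 * d * (4 * d * (x / 2) ^ 2) = Real.pi ^ 2 := by
      rw [hx]; field_simp; ring
    nlinarith [mul_le_mul_of_nonneg_left h4 (by positivity : (0 : ℝ) ≤ 4 * d * (4 * d))]
  have hs1 := (hE 0).2
  have hs2 := (hE (2 * d - 1)).1
  rw [a0] at hs1
  rw [a1, Real.sin_two_pi_sub] at hs2
  have h6 := mul_le_mul_of_nonneg_right hLb (by linarith :
    0 ≤ (1 - E n (Real.sin x) f) + (1 + E n (-Real.sin x) f))
  nlinarith

/-- comparison with the hyperbolic tangent -/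
lemma compare {n d : ℕ} {f : (Fin n → Bool) → ℝ} (hb : ∀ x, f x = 1 ∨ f x = -1)
    (hf : Deg n d f) {s : ℝ} (hs0 : 0 ≤ s) (hs1 : s < 1)
    (hlt : ∀ t, -1 < t → t < 1 → -1 < E n t f ∧ E n t f < 1) :
    (1 + E n s f) * (1 - E n (-s) f) ≤
      Real.exp (d * (Real.log (1 + s) - Real.log (1 - s))) ^ 2
        * ((1 - E n s f) * (1 + E n (-s) f)) := by
  set H : ℝ → ℝ := fun t => Real.log (1 + E n t f) - Real.log (1 - E n t f)
    - d * (Real.log (1 + t) - Real.log (1 - t)) with hH
  have hder : ∀ t, -1 < t → t < 1 → HasDerivAt H (dE n t f / (1 + E n t f)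
      - (-dE n t f) / (1 - E n t f) - d * (1 / (1 + t) - (-1) / (1 - t))) t := by
    intro t h1 h2
    obtain ⟨h3, h4⟩ := hlt t h1 h2
    have hE := E_hasDerivAt n f t
    have e1 := (hE.const_add 1).log (by linarith)
    have e2 := (hE.const_sub 1).log (by linarith)
    have e3 := ((hasDerivAt_id' t).const_add 1).log (by linarith)
    have e4 := ((hasDerivAt_id' t).const_sub 1).log (by linarith)
    exact (e1.sub e2).sub ((e3.sub e4).const_mul (d : ℝ))
  have hanti : AntitoneOn H (Set.Icc (-s) s) := by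
    apply antitoneOn_of_deriv_nonpos (convex_Icc _ _)
    · intro t ht
      exact (hder t (by linarith [ht.1]) (by linarith [ht.2])).continuousAt.continuousWithinAt
    · rw [interior_Icc]
      intro t ht
      exact (hder t (by linarith [ht.1]) (by linarith [ht.2])).differentiableAt.differentiableWithinAt
    · rw [interior_Icc]
      intro t ht
      have h1 : -1 < t := by linarith [ht.1]
      have h2 : t < 1 := by linarith [ht.2]
      rw [(hder t h1 h2).deriv]
      obtain ⟨h3, h4⟩ := hlt t h1 h2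
      have hode := ode n h1.le h2.le d f hb hf
      push_cast at hode
      have e1 : dE n t f / (1 + E n t f) - (-dE n t f) / (1 - E n t f)
          = 2 * dE n t f / (1 - E n t f ^ 2) := by
        have : (1 + E n t f) ≠ 0 := by linarith
        have h5 : (1 - E n t f) ≠ 0 := by linarith
        have h6 : 1 - E n t f ^ 2 ≠ 0 := by
          rw [show 1 - E n t f ^ 2 = (1 + E n t f) * (1 - E n t f) by ring]
          exact mul_ne_zero this h5
        field_simp
        ring
      have e2 : (1 : ℝ) / (1 + t) - (-1) / (1 - t) = 2 / (1 - t ^ 2) := by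
        have : (1 + t) ≠ 0 := by linarith
        have h5 : (1 - t) ≠ 0 := by linarith
        have h6 : 1 - t ^ 2 ≠ 0 := by
          rw [show 1 - t ^ 2 = (1 + t) * (1 - t) by ring]
          exact mul_ne_zero this h5
        field_simp
        ring
      rw [e1, e2]
      have p1 : 0 < 1 - E n t f ^ 2 := by nlinarith
      have p2 : 0 < 1 - t ^ 2 := by nlinarith
      rw [sub_nonpos, ← mul_div_assoc, div_le_div_iff₀ p1 p2]
      nlinarith
  have h1 := hanti (Set.left_mem_Icc.2 (by linarith)) (Set.right_mem_Icc.2 (by linarith))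
    (by linarith : -s ≤ s)
  obtain ⟨a1, a2⟩ := hlt s (by linarith) hs1
  obtain ⟨b1, b2⟩ := hlt (-s) (by linarith) (by linarith)
  simp only [hH] at h1
  have h2 : Real.log (1 + E n s f) + Real.log (1 - E n (-s) f)
      ≤ 2 * (d * (Real.log (1 + s) - Real.log (1 - s)))
        + (Real.log (1 - E n s f) + Real.log (1 + E n (-s) f)) := by
    have : (1 : ℝ) - -s = 1 + s := by ring
    rw [this, ← sub_eq_add_neg] at h1
    linarith
  have h3 := Real.exp_le_exp.2 h2
  rw [Real.exp_add, Real.exp_log (by linarith), Real.exp_log (by linarith), Real.exp_add,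
    Real.exp_add, Real.exp_log (by linarith), Real.exp_log (by linarith), two_mul,
    Real.exp_add, ← pow_two] at h3
  exact h3

lemma log_bound {s : ℝ} (h0 : 0 ≤ s) (h1 : s < 1) :
    Real.log (1 + s) - Real.log (1 - s) ≤ 2 * s / (1 - s ^ 2) := by
  have p1 : 0 < 1 + s := by linarith
  have p2 : 0 < 1 - s := by linarith
  rw [← Real.log_div p1.ne' p2.ne']
  have hx : 0 < (1 + s) / (1 - s) := div_pos p1 p2
  have hx1 : 1 ≤ (1 + s) / (1 - s) := by rw [le_div_iff₀ p2]; linarith
  have h2 := Real.self_le_sinh_iff.2 (Real.log_nonneg hx1)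
  rw [Real.sinh_log hx] at h2
  refine h2.trans (le_of_eq ?_)
  have p3 : 1 - s ^ 2 ≠ 0 := by nlinarith
  rw [inv_div]
  field_simp
  ring

/-- the general bound -/
lemma general {n d : ℕ} (hd : 2 ≤ d) {f : (Fin n → Bool) → ℝ} (hb : ∀ x, f x = 1 ∨ f x = -1)
    (hf : Deg n d f) {σ Q : ℝ} (hσ1 : σ < 1) (hσ : Real.sin (Real.pi / (2 * d)) ^ 2 ≤ σ)
    (hQ : Real.exp (Real.pi / (1 - σ)) ≤ Q) :
    dE n 0 f ≤ d * (1 - 16 / (Real.pi ^ 2 * (Q + 1))) := by
  have hpi := Real.pi_pos
  have hd' : (2 : ℝ) ≤ d := by exact_mod_cast hd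
  set s : ℝ := Real.sin (Real.pi / (2 * d)) with hs
  have hx0 : 0 < Real.pi / (2 * d) := by positivity
  have hs0 : 0 ≤ s := by
    apply Real.sin_nonneg_of_nonneg_of_le_pi hx0.le
    rw [div_le_iff₀ (by positivity)]
    nlinarith
  have hs1 : s < 1 := by nlinarith
  have hsx : s ≤ Real.pi / (2 * d) := Real.sin_le hx0.le
  have hexp1 : 1 ≤ Real.exp (Real.pi / (1 - σ)) := by
    apply Real.one_le_exp
    exact div_nonneg hpi.le (by linarith)
  have hQ1 : 1 ≤ Q := hexp1.trans hQ
  have hc : 0 ≤ d * (1 - 16 / (Real.pi ^ 2 * (Q + 1))) := by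
    have h9 : 9 ≤ Real.pi ^ 2 := by nlinarith [Real.pi_gt_three]
    have : 16 / (Real.pi ^ 2 * (Q + 1)) ≤ 1 := by
      rw [div_le_iff₀ (by positivity)]
      nlinarith
    exact mul_nonneg (by linarith) (by linarith)
  by_cases hconst : ∃ c, ∀ x, f x = c
  · obtain ⟨c, hc'⟩ := hconst
    have : f = fun _ => c := funext hc'
    rw [this, dE_const]
    exact hc
  · have hlt : ∀ t, -1 < t → t < 1 → -1 < E n t f ∧ E n t f < 1 := by
      intro t h1 h2
      obtain ⟨h3, h4⟩ := E_bound n h1.le h2.le f hb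
      constructor
      · rcases lt_or_eq_of_le h3 with h | h
        · exact h
        · exfalso
          apply hconst
          have h5 := E_lin n t (-1) 0 f f
          refine ⟨-1, fun x => ?_⟩
          have h6 := E_eq_max n h1 h2 1 (fun x => -1 * f x + 0 * f x) (by
            intro y
            rcases hb y with h | h <;> rw [h]
            · norm_num
            · norm_num) (by rw [h5, ← h]; norm_num) x
          linarith
      · rcases lt_or_eq_of_le h4 with h | h
        · exact h
        · exfalso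
          apply hconst
          refine ⟨1, E_eq_max n h1 h2 1 f (by
            intro y
            rcases hb y with h | h <;> rw [h]
            norm_num) h.ge⟩
    have h1 := compare hb hf hs0 hs1 hlt
    have hΛ : d * (Real.log (1 + s) - Real.log (1 - s)) ≤ Real.pi / (1 - σ) := by
      have h2 := log_bound hs0 hs1
      have h3 : 2 * s / (1 - s ^ 2) ≤ 2 * s / (1 - σ) :=
        div_le_div_of_nonneg_left (by linarith) (by linarith) (by linarith)
      have h4 : d * (2 * s / (1 - σ)) ≤ Real.pi / (1 - σ) := by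
        rw [← mul_div_assoc]
        apply div_le_div_of_nonneg_right _ (by linarith)
        rw [le_div_iff₀ (by positivity)] at hsx
        linarith
      have h5 := mul_le_mul_of_nonneg_left (h2.trans h3) (by linarith : (0 : ℝ) ≤ d)
      linarith
    have hexp : Real.exp (d * (Real.log (1 + s) - Real.log (1 - s))) ≤ Q :=
      (Real.exp_le_exp.2 hΛ).trans hQ
    obtain ⟨a1, a2⟩ := hlt s (by linarith) hs1
    obtain ⟨b1, b2⟩ := hlt (-s) (by linarith) (by linarith)
    have h6 := ab_bound (A := 1 - E n s f) (B := 1 + E n (-s) f) (Q := Q) (by linarith)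
      (by linarith) hQ1 (by
        have h7 : Real.exp (d * (Real.log (1 + s) - Real.log (1 - s))) ^ 2 ≤ Q ^ 2 :=
          pow_le_pow_left₀ (Real.exp_pos _).le hexp 2
        have h8 : 0 ≤ (1 - E n s f) * (1 + E n (-s) f) :=
          mul_nonneg (by linarith) (by linarith)
        have h9 := mul_le_mul_of_nonneg_right h7 h8
        calc (2 - (1 - E n s f)) * (2 - (1 + E n (-s) f))
            = (1 + E n s f) * (1 - E n (-s) f) := by ring
          _ ≤ _ := h1.trans h9)
    have h10 := two_nodes (by omega : 1 ≤ d) hb hf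
    rw [← hs] at h10
    have h11 : 4 * d / Real.pi ^ 2 * (4 / (Q + 1)) ≤ 4 * d / Real.pi ^ 2 *
        ((1 - E n s f) + (1 + E n (-s) f)) := mul_le_mul_of_nonneg_left h6 (by positivity)
    have h12 : d * (1 - 16 / (Real.pi ^ 2 * (Q + 1))) = d - 4 * d / Real.pi ^ 2 * (4 / (Q + 1)) := by
      have : Q + 1 ≠ 0 := by linarith
      field_simp
      ring
    rw [h12]
    linarith

end Vale.Agent.P047
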